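import Vale.Agent.Lib.P121.Defs
import Vale.Agent.Lib.P121.Final

/-!
# P121: no optimal Monge plan, in every dimension `d ≥ 2`

In every dimension `d ≥ 2` there is a Borel probability measure `μ` on `ℝ^d` with bounded density
with respect to Lebesgue measure, with compact support and with finite three-marginal Coulomb
energy, which admits no optimal Monge plan.
-/

namespace Vale.Agent.Results.P121.AllDims

open MeasureTheory Vale.Agent.P121
open scoped ENNReal NNReal RealInnerProductSpace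

theorem result (d : ℕ) (hd : 2 ≤ d) :
    ∃ μ : Measure (EuclideanSpace ℝ (Fin d)),
      IsProbabilityMeasure μ ∧
      μ ≪ volume ∧
      (∃ C : ℝ≥0, μ ≤ C • volume) ∧
      (∃ R : ℝ, μ (Metric.closedBall 0 R)ᶜ = 0) ∧
      kantorovichValue μ < ∞ ∧
      ¬ ∃ S T : EuclideanSpace ℝ (Fin d) → EuclideanSpace ℝ (Fin d), IsOptimalMongePair μ S T := by
  have h01 : (⟨0, by omega⟩ : Fin d) ≠ ⟨1, by omega⟩ := by simp
  have hp : ‖(EuclideanSpace.single ⟨0, by omega⟩ 1 : EuclideanSpace ℝ (Fin d))‖ = 1 := by simp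
  have hq : ‖(EuclideanSpace.single ⟨1, by omega⟩ 1 : EuclideanSpace ℝ (Fin d))‖ = 1 := by simp
  have hpq : ⟪(EuclideanSpace.single ⟨0, by omega⟩ 1 : EuclideanSpace ℝ (Fin d)),
      (EuclideanSpace.single ⟨1, by omega⟩ 1 : EuclideanSpace ℝ (Fin d))⟫ = (0 : ℝ) := by
    rw [EuclideanSpace.inner_single_left]
    simp
  obtain ⟨μ, h1, ⟨C, hC⟩, h3, h4, h5⟩ :=
    exists_counterexample (volume : Measure (EuclideanSpace ℝ (Fin d))) hp hq hpq
  refine ⟨μ, h1, ?_, ⟨C, hC⟩, ⟨2, h3⟩, h4, ?_⟩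
  · exact Measure.AbsolutelyContinuous.trans (Measure.absolutelyContinuous_of_le hC)
      (Measure.smul_absolutelyContinuous)
  · rintro ⟨S, T, hST⟩
    exact h5 S T hST

end Vale.Agent.Results.P121.AllDims
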