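import Vale.Agent.Lib.P121.Final

/-!
# P121, third formulation: every Monge plan costs strictly more than the Kantorovich value

Configurations of the three particles are functions `Fin 3 → ℝ^d`.
-/

namespace Vale.Agent.Results.P121.MongeGap

open MeasureTheory
open scoped ENNReal NNReal RealInnerProductSpace

/-- The Coulomb cost `1/|x₀-x₁| + 1/|x₀-x₂| + 1/|x₁-x₂|` of a configuration `x` of three points, with
values in `[0,∞]` (`1/0 = ∞`). -/
noncomputable def coulomb {d : ℕ} (x : Fin 3 → EuclideanSpace ℝ (Fin d)) : ℝ≥0∞ :=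
  1 / ENNReal.ofReal ‖x 0 - x 1‖ + 1 / ENNReal.ofReal ‖x 0 - x 2‖ +
    1 / ENNReal.ofReal ‖x 1 - x 2‖

/-- `Π(μ,μ,μ)`: the measures on `(ℝ^d)³` whose three coordinate marginals all equal `μ`. -/
def couplings {d : ℕ} (μ : Measure (EuclideanSpace ℝ (Fin d))) :
    Set (Measure (Fin 3 → EuclideanSpace ℝ (Fin d))) :=
  {π | ∀ i : Fin 3, π.map (fun x => x i) = μ}

/-- The Kantorovich value `E(μ) = inf { ∫ c dπ : π ∈ Π(μ,μ,μ) }`. -/
noncomputable def kantorovich {d : ℕ} (μ : Measure (EuclideanSpace ℝ (Fin d))) : ℝ≥0∞ :=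
  ⨅ π ∈ couplings μ, ∫⁻ x, coulomb x ∂π

section Bridge

variable {d : ℕ}

theorem coulomb_eq (x y z : EuclideanSpace ℝ (Fin d)) :
    coulomb ![x, y, z] = Vale.Agent.P121.coulombCost x y z := by
  unfold coulomb Vale.Agent.P121.coulombCost
  simp only [edist_dist, dist_eq_norm, one_div, Matrix.cons_val_zero, Matrix.cons_val_one,
    Matrix.cons_val]

theorem measurable_coulomb : Measurable (coulomb (d := d)) := by
  unfold coulomb
  fun_prop

theorem measurable_triple : Measurable (fun p : EuclideanSpace ℝ (Fin d) ×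
    EuclideanSpace ℝ (Fin d) × EuclideanSpace ℝ (Fin d) => ![p.1, p.2.1, p.2.2]) := by
  refine measurable_pi_lambda _ fun i => ?_
  fin_cases i
  · exact measurable_fst
  · exact measurable_snd.fst
  · exact measurable_snd.snd

theorem kantorovich_le (μ : Measure (EuclideanSpace ℝ (Fin d))) :
    kantorovich μ ≤ Vale.Agent.P121.kantorovichValue μ := by
  unfold Vale.Agent.P121.kantorovichValue
  refine le_iInf₂ fun π hπ => ?_
  have hmem : π.map (fun p => ![p.1, p.2.1, p.2.2]) ∈ couplings μ := by
    intro i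
    rw [Measure.map_map (measurable_pi_apply i) measurable_triple]
    fin_cases i
    · exact hπ.1
    · exact hπ.2.1
    · exact hπ.2.2
  refine (iInf₂_le _ hmem).trans (le_of_eq ?_)
  rw [lintegral_map measurable_coulomb measurable_triple]
  exact lintegral_congr fun p => coulomb_eq _ _ _

theorem value_le_monge (μ : Measure (EuclideanSpace ℝ (Fin d)))
    {S T : EuclideanSpace ℝ (Fin d) → EuclideanSpace ℝ (Fin d)}
    (hS : MeasurePreserving S μ μ) (hT : MeasurePreserving T μ μ) :
    Vale.Agent.P121.kantorovichValue μ ≤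
      ∫⁻ x, Vale.Agent.P121.coulombCost x (S x) (T x) ∂μ := by
  have hm : Measurable fun x => (x, S x, T x) :=
    measurable_id.prodMk (hS.measurable.prodMk hT.measurable)
  have hmem : Vale.Agent.P121.IsCoupling μ (μ.map fun x => (x, S x, T x)) := by
    refine ⟨?_, ?_, ?_⟩
    · rw [Measure.map_map measurable_fst hm]
      exact Measure.map_id
    · exact (Measure.map_map (measurable_fst.comp measurable_snd) hm).trans hS.map_eq
    · exact (Measure.map_map (measurable_snd.comp measurable_snd) hm).trans hT.map_eq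
  unfold Vale.Agent.P121.kantorovichValue
  refine (iInf₂_le _ hmem).trans (le_of_eq ?_)
  rw [lintegral_map _ hm]
  unfold Vale.Agent.P121.coulombCost
  fun_prop

end Bridge

/-- **Optimal Monge plans need not exist.**  In every dimension `d ≥ 2` there is an absolutely
continuous probability measure `μ` on `ℝ^d` (with bounded density and compact support) with
`E(μ) < ∞` such that every Monge plan `(Id, T₂, T₃)_# μ` costs strictly more than `E(μ)`. -/
theorem result (d : ℕ) (hd : 2 ≤ d) :
    ∃ μ : Measure (EuclideanSpace ℝ (Fin d)), IsProbabilityMeasure μ ∧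
      (∃ ρ : EuclideanSpace ℝ (Fin d) → ℝ≥0∞, Measurable ρ ∧ μ = volume.withDensity ρ ∧
        (∃ C : ℝ≥0, ∀ x, ρ x ≤ C) ∧ ∃ R : ℝ, ∀ x, R < ‖x‖ → ρ x = 0) ∧
      kantorovich μ < ∞ ∧
      ∀ T₂ T₃ : EuclideanSpace ℝ (Fin d) → EuclideanSpace ℝ (Fin d),
        MeasurePreserving T₂ μ μ → MeasurePreserving T₃ μ μ →
          kantorovich μ < ∫⁻ x, coulomb ![x, T₂ x, T₃ x] ∂μ := by
  have h01 : (⟨0, by omega⟩ : Fin d) ≠ ⟨1, by omega⟩ := by simp
  have hp : ‖(EuclideanSpace.single ⟨0, by omega⟩ 1 : EuclideanSpace ℝ (Fin d))‖ = 1 := by simp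
  have hq : ‖(EuclideanSpace.single ⟨1, by omega⟩ 1 : EuclideanSpace ℝ (Fin d))‖ = 1 := by simp
  have hpq : ⟪(EuclideanSpace.single ⟨0, by omega⟩ 1 : EuclideanSpace ℝ (Fin d)),
      (EuclideanSpace.single ⟨1, by omega⟩ 1 : EuclideanSpace ℝ (Fin d))⟫ = (0 : ℝ) := by
    rw [EuclideanSpace.inner_single_left]
    simp
  obtain ⟨μ, h1, ⟨C, hC⟩, h3, h4, h5⟩ :=
    Vale.Agent.P121.exists_counterexample (volume : Measure (EuclideanSpace ℝ (Fin d))) hp hq hpq
  have hac : μ ≪ volume := Measure.AbsolutelyContinuous.trans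
    (Measure.absolutelyContinuous_of_le hC) (Measure.smul_absolutelyContinuous)
  refine ⟨μ, h1, ?_, (kantorovich_le μ).trans_lt h4, fun S T hS hT => ?_⟩
  · -- the density, cut off where it exceeds `C` or outside the ball
    have hae : μ.rnDeriv volume ≤ᵐ[volume] fun _ => (C : ℝ≥0∞) := by
      refine ae_le_of_forall_setLIntegral_le_of_sigmaFinite (Measure.measurable_rnDeriv _ _) ?_
      intro s hs _
      rw [Measure.setLIntegral_rnDeriv hac, lintegral_const, Measure.restrict_apply_univ]
      exact Measure.le_iff.1 hC s hs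
    set ρ : EuclideanSpace ℝ (Fin d) → ℝ≥0∞ := fun x =>
      (Metric.closedBall (0 : EuclideanSpace ℝ (Fin d)) 2).indicator
        (fun x => min (μ.rnDeriv volume x) C) x with hρ
    have hρm : Measurable ρ :=
      ((Measure.measurable_rnDeriv _ _).min measurable_const).indicator
        Metric.isClosed_closedBall.measurableSet
    have hball : MeasurableSet (Metric.closedBall (0 : EuclideanSpace ℝ (Fin d)) 2) :=
      Metric.isClosed_closedBall.measurableSet
    refine ⟨ρ, hρm, ?_, ⟨C, fun x => ?_⟩, 2, fun x hx => ?_⟩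
    · have e1 : μ = μ.restrict (Metric.closedBall (0 : EuclideanSpace ℝ (Fin d)) 2) := by
        rw [Measure.restrict_eq_self_of_ae_mem]
        exact h3
      conv_lhs => rw [e1]
      conv_lhs => rw [← Measure.withDensity_rnDeriv_eq μ volume hac]
      rw [restrict_withDensity hball, ← withDensity_indicator hball]
      refine withDensity_congr_ae ?_
      filter_upwards [hae] with x hx
      by_cases hb : x ∈ Metric.closedBall (0 : EuclideanSpace ℝ (Fin d)) 2
      · rw [hρ]
        simp only [Set.indicator_of_mem hb]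
        exact (min_eq_left hx).symm
      · rw [hρ]
        simp only [Set.indicator_of_notMem hb]
    · by_cases hb : x ∈ Metric.closedBall (0 : EuclideanSpace ℝ (Fin d)) 2
      · rw [hρ]
        simp only [Set.indicator_of_mem hb]
        exact min_le_right _ _
      · rw [hρ]
        simp only [Set.indicator_of_notMem hb]
        exact zero_le
    · rw [hρ]
      refine Set.indicator_of_notMem ?_ _
      rw [mem_closedBall_zero_iff]
      exact not_le.2 hx
  · by_contra hcon
    rw [not_lt] at hcon
    have e2 : ∫⁻ x, coulomb ![x, S x, T x] ∂μ =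
        ∫⁻ x, Vale.Agent.P121.coulombCost x (S x) (T x) ∂μ :=
      lintegral_congr fun x => coulomb_eq _ _ _
    rw [e2] at hcon
    refine h5 S T ⟨hS.measurable, hT.measurable, hS.map_eq, hT.map_eq, le_antisymm ?_ ?_⟩
    · exact hcon.trans (kantorovich_le μ)
    · exact value_le_monge μ hS hT

end Vale.Agent.Results.P121.MongeGap
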